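import Vale.Agent.P168.Defs
import Mathlib.Probability.IdentDistrib
import Mathlib.Probability.Independence.Basic

/-! The conditions written in the text of the problem, and the three independence conditions of
Panchenko and Talagrand, one by one. -/

open MeasureTheory ProbabilityTheory

namespace Vale.Agent.P168S

open Vale.Agent.P168

/-- The conditions on the law `ρ` of `(a, b, (f_j))` and the law `ν` of `h` which do not concern
the joint law of `b, f_1, …, f_K`: `K ≥ 2` is even, `a > 0`, `b ∈ (-1, 1)`, `|f_j| ≤ 1`,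
`E (-b)^n ≥ 0` for `n ≥ 1`, `E max |θ| < ∞` and `E |h| < ∞`. -/
structure BareClass (K : ℕ) (ρ : Measure (Clause K)) (ν : Measure ℝ) : Prop where
  two_le : 2 ≤ K
  even : Even K
  prob_clause : IsProbabilityMeasure ρ
  prob_field : IsProbabilityMeasure ν
  a_pos : ∀ᵐ c ∂ρ, 0 < c.1
  b_mem : ∀ᵐ c ∂ρ, c.2.1 ∈ Set.Ioo (-1 : ℝ) 1
  f_mem : ∀ᵐ c ∂ρ, ∀ j s, c.2.2 j s ∈ Set.Icc (-1 : ℝ) 1
  positivity : ∀ n : ℕ, 1 ≤ n → 0 ≤ ∫ c, (-c.2.1) ^ n ∂ρ
  theta_int : ∀ σ, Integrable (fun c => theta c σ) ρ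
  field_int : Integrable (fun h => h) ν

/-- The random functions `f_1, …, f_K` have the same law. -/
def SameLaw {K : ℕ} (ρ : Measure (Clause K)) : Prop :=
  ∀ i j : Fin K, IdentDistrib (fun c : Clause K => c.2.2 i) (fun c : Clause K => c.2.2 j) ρ ρ

/-- The random functions `f_1, …, f_K` are independent. -/
def IndepF {K : ℕ} (ρ : Measure (Clause K)) : Prop :=
  iIndepFun (fun (j : Fin K) (c : Clause K) => c.2.2 j) ρ

/-- `b` is independent of `(f_1, …, f_K)`. -/
def IndepB {K : ℕ} (ρ : Measure (Clause K)) : Prop :=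
  IndepFun (fun c : Clause K => c.2.1) (fun c : Clause K => c.2.2) ρ

end Vale.Agent.P168S
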