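import Vale.Agent.P168S.Defs
import Vale.Agent.P168.H45.Final

/-! A ferromagnet written in the form `a (1 + b f_1 f_2)`: the formula fails. -/

open MeasureTheory ProbabilityTheory Filter
open scoped NNReal Topology

namespace Vale.Agent.P168S

open Vale.Agent.P168

/-- The interaction is the ferromagnetic one. -/
def Ferro (c : Clause 2) : Prop :=
  ∀ σ : Fin 2 → Bool, theta c σ = Real.log (1 + spin (σ 0) * spin (σ 1) / 2)

theorem spin_cases (s : Bool) : spin s = 1 ∨ spin s = -1 := by
  cases s <;> simp [spin]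

theorem spin_sq (s : Bool) : spin s * spin s = 1 := by
  cases s <;> simp [spin]

theorem Ferro.exp {c : Clause 2} (h : Ferro c) (σ : Fin 2 → Bool) :
    Real.exp (theta c σ) = 1 + spin (σ 0) * spin (σ 1) / 2 := by
  rw [h σ, Real.exp_log]
  rcases spin_cases (σ 0) with h1 | h1 <;> rcases spin_cases (σ 1) with h2 | h2 <;>
    rw [h1, h2] <;> norm_num

theorem Ferro.le {c : Clause 2} (h : Ferro c) (σ : Fin 2 → Bool) :
    theta c σ ≤ Real.log (3 / 2) := by
  rw [h σ]
  rcases spin_cases (σ 0) with h1 | h1 <;> rcases spin_cases (σ 1) with h2 | h2 <;>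
    rw [h1, h2] <;> exact Real.log_le_log (by norm_num) (by norm_num)

theorem sum_two (F : (Fin 2 → Bool) → ℝ) :
    ∑ σ, F σ = F ![true, true] + F ![true, false] + F ![false, true] + F ![false, false] := by
  rw [← (piFinTwoEquiv fun _ => Bool).symm.sum_comp, Fintype.sum_prod_type]
  simp only [Fintype.sum_bool, piFinTwoEquiv_symm_apply]
  have e : ∀ a b : Bool, (Fin.cons a (Fin.cons b finZeroElim) : Fin 2 → Bool) = ![a, b] := by
    intro a b
    funext i
    fin_cases i <;> rfl
  simp only [e]
  ring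

theorem Ferro.cavity {c : Clause 2} (h : Ferro c) (l : Fin 2) (e : Bool) :
    cavityFactor c l (fun _ => 0) e = 1 := by
  unfold cavityFactor
  simp only [h.exp]
  rw [sum_two]
  have h0 : (Finset.univ : Finset (Fin 2)).erase 0 = {1} := by decide
  have h1 : (Finset.univ : Finset (Fin 2)).erase 1 = {0} := by decide
  fin_cases l <;> cases e <;> simp [spin, h0, h1] <;> norm_num

theorem Ferro.edge {c : Clause 2} (h : Ferro c) : edgeFactor c (fun _ => 0) = 1 := by
  unfold edgeFactor
  simp only [h.exp]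
  rw [sum_two]
  simp [spin]
  norm_num

variable {ρ : Measure (Clause 2)} [IsProbabilityMeasure ρ]

theorem ae_pi_dirac (N : ℕ) :
    ∀ᵐ h ∂(Measure.pi fun _ : Fin N => Measure.dirac (0 : ℝ)), h = 0 := by
  have h1 : ∀ i : Fin N, ∀ᵐ h ∂(Measure.pi fun _ : Fin N => Measure.dirac (0 : ℝ)), h i = 0 :=
    fun i => (Measure.quasiMeasurePreserving_eval (fun _ : Fin N => Measure.dirac (0 : ℝ)) i).ae
      (p := fun x => x = 0) (by simp)
  filter_upwards [ae_all_iff.2 h1] with h hh
  exact funext hh

theorem ae_pi_fst {β : Type} [MeasurableSpace β] (μ : Measure β) [IsProbabilityMeasure μ]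
    (hρ : ∀ᵐ c ∂ρ, Ferro c) (n : ℕ) :
    ∀ᵐ ω ∂(Measure.pi fun _ : Fin n => ρ.prod μ), ∀ k, Ferro (ω k).1 := by
  refine ae_all_iff.2 fun k => ?_
  have h1 : ∀ᵐ z ∂(ρ.prod μ), Ferro z.1 := Measure.quasiMeasurePreserving_fst.ae hρ
  exact (Measure.quasiMeasurePreserving_eval (fun _ : Fin n => ρ.prod μ) k).ae h1

theorem mp_le (hρ : ∀ᵐ c ∂ρ, Ferro c) (lam : ℝ≥0) :
    mezardParisi lam ρ (Measure.dirac 0) ≤ ((Real.log 2 : ℝ) : EReal) := by
  have htr : IsTrial 0 (fun _ => 0) (fun _ => 0) :=
    ⟨fun a => a.elim0, fun a => a.elim0, measurable_const, fun _ => by norm_num⟩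
  have hU : trialU lam ρ (Measure.dirac 0) 0 (fun _ => 0) (fun _ => 0) = Real.log 2 := by
    unfold trialU
    rw [← pois_const (((2 : ℕ) : ℝ≥0) * lam) (Real.log 2)]
    refine integral_congr_ae (Eventually.of_forall fun n => ?_)
    have h1 : ∫ _ : Fin n → Clause 2 × Fin 2, Real.log 2
        ∂(Measure.pi fun _ => ρ.prod (unif 2)) = Real.log 2 := by simp
    simp only
    rw [← h1]
    refine integral_congr_ae ((ae_pi_fst (unif 2) hρ n).mono fun ω hω => ?_)
    simp only [integral_dirac]
    unfold hierLog nest message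
    simp only [Nat.rec_zero, (hω _).cavity]
    simp
  have hV : trialV lam ρ 0 (fun _ => 0) (fun _ => 0) = 0 := by
    unfold trialV
    refine integral_eq_zero_of_ae (Eventually.of_forall fun n => ?_)
    have h1 : ∀ᵐ ω ∂(Measure.pi fun _ : Fin n => ρ), ∀ k, Ferro (ω k) :=
      ae_all_iff.2 fun k => (Measure.quasiMeasurePreserving_eval (fun _ : Fin n => ρ) k).ae hρ
    refine integral_eq_zero_of_ae (h1.mono fun ω hω => ?_)
    unfold hierLog nest message
    simp only [Nat.rec_zero, (hω _).edge]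
    simp
  unfold mezardParisi phi
  refine (iInf_le _ 0).trans ((iInf_le _ fun _ => 0).trans ((iInf_le _ fun _ => 0).trans
    ((iInf_le _ htr).trans ?_)))
  rw [hU, hV, sub_zero]

theorem logZ_mem {N n : ℕ} {ω : Fin n → Clause 2 × (Fin 2 → Fin N)} (hω : ∀ k, Ferro (ω k).1) :
    n * Real.log (3 / 2) ≤ Real.log (partitionFn ω 0) ∧
      Real.log (partitionFn ω 0) ≤ Real.log (2 ^ N) + n * Real.log (3 / 2) := by
  have hpos : ∀ σ : Fin N → Bool, 0 < Real.exp (∑ k, theta (ω k).1 (fun j => σ ((ω k).2 j)) +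
      ∑ v, (0 : Fin N → ℝ) v * spin (σ v)) := fun σ => Real.exp_pos _
  constructor
  · unfold partitionFn
    rw [Real.le_log_iff_exp_le (Finset.sum_pos (fun σ _ => hpos σ) Finset.univ_nonempty)]
    refine le_trans (le_of_eq ?_) (Finset.single_le_sum (fun σ _ => (hpos σ).le)
      (Finset.mem_univ fun _ => true))
    congr 1
    simp only [(hω _) _, spin, Pi.zero_apply, zero_mul, Finset.sum_const_zero, add_zero]
    simp
    norm_num
  · have h1 : partitionFn ω 0 ≤ 2 ^ N * Real.exp (n * Real.log (3 / 2)) := by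
      unfold partitionFn
      calc _ ≤ ∑ _σ : Fin N → Bool, Real.exp (n * Real.log (3 / 2)) := by
            refine Finset.sum_le_sum fun σ _ => Real.exp_le_exp.2 ?_
            simp only [Pi.zero_apply, zero_mul, Finset.sum_const_zero, add_zero]
            calc _ ≤ ∑ _k : Fin n, Real.log (3 / 2) :=
                  Finset.sum_le_sum fun k _ => (hω k).le _
              _ = _ := by simp
        _ = _ := by simp
    have h2 : 0 < partitionFn ω 0 := Finset.sum_pos (fun σ _ => hpos σ) Finset.univ_nonempty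
    refine (Real.log_le_log h2 h1).trans (le_of_eq ?_)
    rw [Real.log_mul (by positivity) (Real.exp_pos _).ne', Real.log_exp]

theorem le_pressure (hρ : ∀ᵐ c ∂ρ, Ferro c) (lam : ℝ≥0) {N : ℕ} (hN : 1 ≤ N) :
    lam * Real.log (3 / 2) ≤ pressure lam ρ (Measure.dirac 0) N := by
  have : NeZero N := ⟨by omega⟩
  have hl : 0 ≤ Real.log (3 / 2) := Real.log_nonneg (by norm_num)
  have hl2 : 0 ≤ Real.log (2 ^ N) := Real.log_nonneg (one_le_pow₀ (by norm_num))
  set I : ℕ → ℝ := fun n => ∫ ω : Fin n → Clause 2 × (Fin 2 → Fin N), (∫ h : Fin N → ℝ,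
      Real.log (partitionFn ω h) ∂(Measure.pi fun _ => Measure.dirac 0))
      ∂(Measure.pi fun _ => ρ.prod (Measure.pi fun _ => unif N)) with hI
  have hmem : ∀ n : ℕ, n * Real.log (3 / 2) ≤ I n ∧
      I n ≤ Real.log (2 ^ N) + n * Real.log (3 / 2) := by
    intro n
    have e1 : I n = ∫ ω : Fin n → Clause 2 × (Fin 2 → Fin N), Real.log (partitionFn ω 0)
        ∂(Measure.pi fun _ => ρ.prod (Measure.pi fun _ => unif N)) := by
      refine integral_congr_ae (Eventually.of_forall fun ω => ?_)
      have h1 : ∫ _ : Fin N → ℝ, Real.log (partitionFn ω 0)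
          ∂(Measure.pi fun _ => Measure.dirac 0) = Real.log (partitionFn ω 0) := by simp
      simp only
      rw [← h1]
      exact integral_congr_ae ((ae_pi_dirac N).mono fun h hh => by rw [hh])
    have hmeas : Measurable fun ω : Fin n → Clause 2 × (Fin 2 → Fin N) =>
        Real.log (partitionFn ω 0) := by
      refine Real.measurable_log.comp ?_
      unfold partitionFn
      refine Finset.measurable_fun_sum _ fun σ _ => Real.measurable_exp.comp ?_
      refine Measurable.add (Finset.measurable_fun_sum _ fun k _ => ?_) measurable_const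
      exact (measurable_clauseE σ).comp (measurable_pi_apply k)
    have hae := ae_pi_fst (Measure.pi fun _ : Fin 2 => unif N) hρ n
    have hint : Integrable (fun ω : Fin n → Clause 2 × (Fin 2 → Fin N) =>
        Real.log (partitionFn ω 0)) (Measure.pi fun _ => ρ.prod (Measure.pi fun _ => unif N)) := by
      refine Integrable.mono' (integrable_const (Real.log (2 ^ N) + n * Real.log (3 / 2)))
        hmeas.aestronglyMeasurable (hae.mono fun ω hω => ?_)
      have h1 := logZ_mem hω
      rw [Real.norm_eq_abs, abs_of_nonneg (le_trans (by positivity) h1.1)]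
      exact h1.2
    rw [e1]
    constructor
    · refine le_trans (le_of_eq ?_) (integral_mono_ae (integrable_const (n * Real.log (3 / 2)))
        hint (hae.mono fun ω hω => (logZ_mem hω).1))
      simp
    · refine le_trans (integral_mono_ae hint (integrable_const _)
        (hae.mono fun ω hω => (logZ_mem hω).2)) (le_of_eq ?_)
      simp
  have hlin : ∀ c d : ℝ, 0 ≤ c → 0 ≤ d → ∀ f : ℕ → ℝ, (∀ n, |f n| ≤ d + n * c) → ExpGrowth f := by
    intro c d hc hd f hf
    refine ⟨c + d, 2, by positivity, by norm_num, fun n => (hf n).trans ?_⟩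
    have h1 : (n : ℝ) ≤ 2 ^ n := by exact_mod_cast Nat.lt_two_pow_self.le
    have h2 : (1 : ℝ) ≤ 2 ^ n := one_le_pow₀ (by norm_num)
    nlinarith
  have g1 : ExpGrowth fun n : ℕ => (n : ℝ) * Real.log (3 / 2) :=
    hlin _ 0 hl le_rfl _ fun n => by rw [abs_of_nonneg (by positivity), zero_add]
  have g2 : ExpGrowth I := hlin _ _ hl hl2 _ fun n => by
    rw [abs_of_nonneg (le_trans (by positivity) (hmem n).1)]
    exact (hmem n).2
  have h3 := pois_mono g1 g2 (lam * N) fun n => (hmem n).1
  rw [integral_mul_const, pois_mean] at h3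
  have hN0 : (0 : ℝ) < N := by exact_mod_cast hN
  unfold pressure
  rw [one_div, ← div_eq_inv_mul, le_div_iff₀ hN0]
  refine le_trans (le_of_eq ?_) h3
  push_cast
  ring

/-- With `λ = 2` the pressure stays above the value of the formula. -/
theorem fails (hρ : ∀ᵐ c ∂ρ, Ferro c) :
    mezardParisi 2 ρ (Measure.dirac 0) <
      liminf (fun N : ℕ => ((pressure 2 ρ (Measure.dirac 0) N : ℝ) : EReal)) atTop := by
  have h1 : Real.log 2 < 2 * Real.log (3 / 2) := by
    rw [show (2 : ℝ) * Real.log (3 / 2) = Real.log ((3 / 2) ^ 2) by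
      rw [Real.log_pow]; norm_num]
    exact Real.log_lt_log (by norm_num) (by norm_num)
  refine (mp_le hρ 2).trans_lt (lt_of_lt_of_le (EReal.coe_lt_coe_iff.2 h1) ?_)
  refine le_liminf_of_le (by isBoundedDefault) ?_
  filter_upwards [eventually_ge_atTop 1] with N hN
  have := le_pressure hρ 2 hN
  exact EReal.coe_le_coe_iff.2 (by simpa using this)

end Vale.Agent.P168S
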