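import Vale.Agent.P168S.Ferro

/-! The three examples, and the assembly. -/

open MeasureTheory ProbabilityTheory Filter
open scoped NNReal Topology

namespace Vale.Agent.P168S

open Vale.Agent.P168

/-- Two fair signs. -/
noncomputable def signs : Measure (Fin 2 → Bool) := Measure.pi fun _ => uniformOn Set.univ

instance : IsProbabilityMeasure (uniformOn (Set.univ : Set Bool)) :=
  isProbabilityMeasure_uniformOn Set.finite_univ Set.univ_nonempty

instance : IsProbabilityMeasure signs := by unfold signs; infer_instance

theorem signs_singleton (s : Fin 2 → Bool) : signs.real {s} = 1 / 4 := by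
  unfold signs
  rw [measureReal_def, Measure.pi_singleton]
  have : ∀ b : Bool, uniformOn (Set.univ : Set Bool) {b} = 1 / 2 := by
    intro b
    rw [uniformOn_univ]
    simp
  simp only [this, Fin.prod_univ_two]
  simp
  norm_num

theorem integral_signs (F : (Fin 2 → Bool) → ℝ) : ∫ s, F s ∂signs =
    (F ![true, true] + F ![true, false] + F ![false, true] + F ![false, false]) / 4 := by
  rw [integral_fintype Integrable.of_finite, sum_two]
  simp only [signs_singleton, smul_eq_mul]
  ring

theorem bare_of (g : (Fin 2 → Bool) → Clause 2) (h1 : ∀ s, (g s).1 = 1)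
    (h2 : ∀ s, (g s).2.1 = 1 / 2 ∨ (g s).2.1 = -(1 / 2))
    (h3 : ∀ s j e, (g s).2.2 j e = 1 ∨ (g s).2.2 j e = -1)
    (h4 : ∀ n : ℕ, 0 ≤ (-(g ![true, true]).2.1) ^ n + (-(g ![true, false]).2.1) ^ n +
      (-(g ![false, true]).2.1) ^ n + (-(g ![false, false]).2.1) ^ n) :
    BareClass 2 (signs.map g) (Measure.dirac 0) := by
  have hg : Measurable g := measurable_of_finite g
  have hb : Measurable fun c : Clause 2 => c.2.1 := measurable_fst.comp measurable_snd
  refine ⟨le_rfl, even_two, Measure.isProbabilityMeasure_map hg.aemeasurable, inferInstance,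
    ?_, ?_, ?_, fun n _ => ?_, fun σ => ?_, integrable_dirac (by simp)⟩
  · rw [ae_map_iff hg.aemeasurable (measurableSet_lt measurable_const measurable_fst)]
    exact Eventually.of_forall fun s => by rw [h1]; norm_num
  · rw [ae_map_iff hg.aemeasurable (hb measurableSet_Ioo)]
    refine Eventually.of_forall fun s => ?_
    change (g s).2.1 ∈ Set.Ioo (-1 : ℝ) 1
    rcases h2 s with h | h <;> rw [h] <;> constructor <;> norm_num
  · refine ae_all_iff.2 fun j => ae_all_iff.2 fun e => ?_
    have hm : Measurable fun c : Clause 2 => c.2.2 j e :=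
      (measurable_pi_apply e).comp ((measurable_pi_apply j).comp
        (measurable_snd.comp measurable_snd))
    rw [ae_map_iff hg.aemeasurable (hm measurableSet_Icc)]
    refine Eventually.of_forall fun s => ?_
    change (g s).2.2 j e ∈ Set.Icc (-1 : ℝ) 1
    rcases h3 s j e with h | h <;> rw [h] <;> constructor <;> norm_num
  · have hm : Measurable fun c : Clause 2 => (-c.2.1) ^ n := hb.neg.pow_const n
    rw [integral_map hg.aemeasurable hm.aestronglyMeasurable, integral_signs]
    exact div_nonneg (h4 n) (by norm_num)
  · rw [integrable_map_measure (measurable_theta σ).aestronglyMeasurable hg.aemeasurable]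
    exact Integrable.of_finite

theorem ferro_ae (g : (Fin 2 → Bool) → Clause 2) (h : ∀ s, Ferro (g s)) :
    ∀ᵐ c ∂(signs.map g), Ferro c := by
  have hg : Measurable g := measurable_of_finite g
  refine ae_all_iff.2 fun σ => ?_
  rw [ae_map_iff hg.aemeasurable (measurableSet_eq_fun (measurable_theta σ) measurable_const)]
  exact Eventually.of_forall fun s => h s σ

theorem meas_f (j : Fin 2) : Measurable fun c : Clause 2 => c.2.2 j :=
  (measurable_pi_apply j).comp (measurable_snd.comp measurable_snd)

theorem sameLaw_of (g : (Fin 2 → Bool) → Clause 2)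
    (h : ∀ i j, signs.map (fun s => (g s).2.2 i) = signs.map fun s => (g s).2.2 j) :
    SameLaw (signs.map g) := by
  have hg : Measurable g := measurable_of_finite g
  intro i j
  refine ⟨(meas_f i).aemeasurable, (meas_f j).aemeasurable, ?_⟩
  rw [Measure.map_map (meas_f i) hg, Measure.map_map (meas_f j) hg]
  exact h i j

theorem indepF_of (g : (Fin 2 → Bool) → Clause 2)
    (h : iIndepFun (fun j s => (g s).2.2 j) signs) : IndepF (signs.map g) := by
  have hg : Measurable g := measurable_of_finite g
  have := Measure.isProbabilityMeasure_map (μ := signs) hg.aemeasurable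
  unfold IndepF
  rw [iIndepFun_iff_map_fun_eq_pi_map fun j => (meas_f j).aemeasurable,
    Measure.map_map (measurable_pi_lambda _ meas_f) hg]
  simp only [Measure.map_map (meas_f _) hg]
  exact h.map_fun_eq_pi_map fun j => (measurable_of_finite _).aemeasurable

theorem indepB_of (g : (Fin 2 → Bool) → Clause 2) {b : ℝ} (h : ∀ s, (g s).2.1 = b) :
    IndepB (signs.map g) := by
  have hg : Measurable g := measurable_of_finite g
  have := Measure.isProbabilityMeasure_map (μ := signs) hg.aemeasurable
  have hb : Measurable fun c : Clause 2 => c.2.1 := measurable_fst.comp measurable_snd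
  refine (indepFun_const_left b (fun c : Clause 2 => c.2.2)).congr ?_ EventuallyEq.rfl
  have : ∀ᵐ c ∂(signs.map g), b = c.2.1 := by
    rw [ae_map_iff hg.aemeasurable (measurableSet_eq_fun measurable_const hb)]
    exact Eventually.of_forall fun s => (h s).symm
  exact this

/-- Deterministic: `b = -1/2`, `f_1 = σ`, `f_2 = -σ`. -/
noncomputable def exA (_ : Fin 2 → Bool) : Clause 2 :=
  (1, -(1 / 2), ![spin, fun e => -spin e])

/-- `f_j = s_j σ`, `b = s_1 s_2 / 2`. -/
noncomputable def exB (s : Fin 2 → Bool) : Clause 2 :=
  (1, spin (s 0) * spin (s 1) / 2, fun j e => spin (s j) * spin e)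

/-- `b = -1/2`, `f_1 = s σ`, `f_2 = -s σ`. -/
noncomputable def exC (s : Fin 2 → Bool) : Clause 2 :=
  (1, -(1 / 2), ![fun e => spin (s 0) * spin e, fun e => spin (!(s 0)) * spin e])

theorem ferroA (s : Fin 2 → Bool) : Ferro (exA s) := by
  intro σ
  unfold theta exA
  simp only [Fin.prod_univ_two, Matrix.cons_val_zero, Matrix.cons_val_one]
  congr 1
  ring

theorem ferroB (s : Fin 2 → Bool) : Ferro (exB s) := by
  intro σ
  unfold theta exB
  simp only [Fin.prod_univ_two]
  congr 1
  have h0 := spin_sq (s 0)
  have h1 := spin_sq (s 1)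
  linear_combination (spin (σ 0) * spin (σ 1) / 2 * (spin (s 1) * spin (s 1))) * h0 +
    (spin (σ 0) * spin (σ 1) / 2) * h1

theorem ferroC (s : Fin 2 → Bool) : Ferro (exC s) := by
  intro σ
  unfold theta exC
  simp only [Fin.prod_univ_two, Matrix.cons_val_zero, Matrix.cons_val_one]
  congr 1
  cases s 0 <;> cases σ 0 <;> cases σ 1 <;> simp [spin] <;> norm_num

theorem bareA : BareClass 2 (signs.map exA) (Measure.dirac 0) := by
  refine bare_of _ (fun _ => rfl) (fun _ => Or.inr rfl) (fun s j e => ?_) fun n => ?_
  · fin_cases j <;> cases e <;> simp [exA, spin]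
  · simp only [exA, neg_neg]
    positivity

theorem bareB : BareClass 2 (signs.map exB) (Measure.dirac 0) := by
  refine bare_of _ (fun _ => rfl) (fun s => ?_) (fun s j e => ?_) fun n => ?_
  · simp only [exB]
    cases s 0 <;> cases s 1 <;> simp [spin] <;> norm_num
  · simp only [exB]
    cases s j <;> cases e <;> simp [spin]
  · simp only [exB, spin, Matrix.cons_val_zero, Matrix.cons_val_one]
    have h : ∀ x : ℝ, 0 ≤ x → 0 ≤ (-x) ^ n + x ^ n := by
      intro x hx
      rcases Nat.even_or_odd n with h | h
      · rw [h.neg_pow]; positivity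
      · rw [h.neg_pow]; simp
    have := h (1 / 2) (by norm_num)
    norm_num at this ⊢
    linarith

theorem bareC : BareClass 2 (signs.map exC) (Measure.dirac 0) := by
  refine bare_of _ (fun _ => rfl) (fun _ => Or.inr rfl) (fun s j e => ?_) fun n => ?_
  · fin_cases j <;> cases e <;> cases h : s 0 <;> simp [exC, spin, h]
  · simp only [exC, neg_neg]
    positivity

theorem signs_eval (j : Fin 2) :
    signs.map (fun s => s j) = uniformOn (Set.univ : Set Bool) :=
  (measurePreserving_eval (fun _ : Fin 2 => uniformOn (Set.univ : Set Bool)) j).map_eq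

theorem unif_not : (uniformOn (Set.univ : Set Bool)).map (fun b => !b) =
    uniformOn (Set.univ : Set Bool) := by
  refine Measure.ext_of_singleton fun b => ?_
  rw [Measure.map_apply (measurable_of_finite _) (measurableSet_singleton b)]
  have : (fun b => !b) ⁻¹' {b} = {!b} := by
    ext c
    cases b <;> cases c <;> simp
  rw [this, uniformOn_univ, uniformOn_univ]
  simp

theorem signs_comp (F : Bool → Bool → ℝ) (j : Fin 2) :
    signs.map (fun s => F (s j)) = (uniformOn (Set.univ : Set Bool)).map F := by
  rw [← signs_eval j, Measure.map_map (measurable_of_finite _) (measurable_of_finite _)]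
  rfl

theorem indepFA : IndepF (signs.map exA) :=
  indepF_of _ (iIndepFun_pi (μ := fun _ : Fin 2 => uniformOn (Set.univ : Set Bool))
    (X := fun j (_ : Bool) => (exA fun _ => true).2.2 j)
    fun _ => (measurable_of_finite _).aemeasurable)

theorem indepFB : IndepF (signs.map exB) :=
  indepF_of _ (iIndepFun_pi (μ := fun _ : Fin 2 => uniformOn (Set.univ : Set Bool))
    (X := fun _ (b : Bool) (e : Bool) => spin b * spin e)
    fun _ => (measurable_of_finite _).aemeasurable)

theorem sameB : SameLaw (signs.map exB) := by
  refine sameLaw_of _ fun i j => ?_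
  exact (signs_comp (fun b e => spin b * spin e) i).trans
    (signs_comp (fun b e => spin b * spin e) j).symm

theorem sameC : SameLaw (signs.map exC) := by
  have h0 : signs.map (fun s => (exC s).2.2 0) =
      (uniformOn (Set.univ : Set Bool)).map fun b e => spin b * spin e :=
    signs_comp (fun b e => spin b * spin e) 0
  have h1 : signs.map (fun s => (exC s).2.2 1) =
      (uniformOn (Set.univ : Set Bool)).map fun b e => spin b * spin e := by
    refine (signs_comp (fun b e => spin (!b) * spin e) 0).trans ?_
    conv_rhs => rw [← unif_not]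
    rw [Measure.map_map (measurable_of_finite _) (measurable_of_finite _)]
    rfl
  refine sameLaw_of _ fun i j => ?_
  fin_cases i <;> fin_cases j
  · rfl
  · exact h0.trans h1.symm
  · exact h1.trans h0.symm
  · rfl

variable {K : ℕ} {ρ : Measure (Clause K)} {ν : Measure ℝ}

theorem inClass_of (h : BareClass K ρ ν) (h1 : SameLaw ρ) (h2 : IndepF ρ) (h3 : IndepB ρ) :
    InClass K ρ ν := by
  have := h.prob_clause
  have hK := h.two_le
  have hb : Measurable fun c : Clause K => c.2.1 := measurable_fst.comp measurable_snd
  have hf : Measurable fun c : Clause K => c.2.2 := measurable_snd.comp measurable_snd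
  have hfj : ∀ j, Measurable fun c : Clause K => c.2.2 j := fun j =>
    (measurable_pi_apply j).comp hf
  refine ⟨h.two_le, h.even, h.prob_clause, h.prob_field, h.a_pos, h.b_mem, h.f_mem,
    ⟨ρ.map fun c => c.2.1, ρ.map fun c => c.2.2 ⟨0, by omega⟩,
      Measure.isProbabilityMeasure_map hb.aemeasurable,
      Measure.isProbabilityMeasure_map (hfj _).aemeasurable, ?_⟩,
    h.positivity, h.theta_int, h.field_int⟩
  have e1 := h3.map_prod_eq_prod_map_map hb.aemeasurable hf.aemeasurable
  have e2 := h2.map_fun_eq_pi_map fun j => (hfj j).aemeasurable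
  refine e1.trans ?_
  congr 1
  refine e2.trans ?_
  congr 1
  funext j
  exact (h1 j _).map_eq

theorem lower (h : BareClass K ρ ν) (lam : ℝ≥0) :
    mezardParisi lam ρ ν ≤ liminf (fun N : ℕ => ((pressure lam ρ ν N : ℝ) : EReal)) atTop := by
  have := h.prob_clause
  have := h.prob_field
  have : NeZero K := ⟨by have := h.two_le; omega⟩
  refine MP.lower_full ρ ?_ ν h.field_int lam
  refine Integrable.mono' (integrable_finsetSum Finset.univ fun σ _ => (h.theta_int σ).abs)
    measurable_maxTheta.aestronglyMeasurable (Eventually.of_forall fun c => ?_)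
  rw [Real.norm_eq_abs, abs_of_nonneg (maxTheta_nonneg c)]
  unfold maxTheta
  exact ciSup_le fun σ => Finset.single_le_sum (f := fun σ => |theta c σ|)
    (fun _ _ => abs_nonneg _) (Finset.mem_univ σ)

theorem tendsto_iff (h : BareClass K ρ ν) (lam : ℝ≥0) :
    Tendsto (fun N : ℕ => ((pressure lam ρ ν N : ℝ) : EReal)) atTop (𝓝 (mezardParisi lam ρ ν)) ↔
      limsup (fun N : ℕ => ((pressure lam ρ ν N : ℝ) : EReal)) atTop ≤ mezardParisi lam ρ ν :=
  ⟨fun ht => ht.limsup_eq.le, fun hu => tendsto_of_le_liminf_of_limsup_le (lower h lam) hu⟩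

end Vale.Agent.P168S
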